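import Vale.Agent.P371.Link.Brouwer

/-!
Brouwer's fixed point theorem on compact convex sets in finite dimension.
-/

namespace Vale.Agent.P131

open Set Filter Topology Metric
open scoped RealInnerProductSpace

section Inner

variable {H : Type*} [NormedAddCommGroup H] [InnerProductSpace ℝ H] {C : Set H}

/-- The nearest point map onto a complete convex set is a nonexpansive retraction. -/
theorem exists_retraction (hne : C.Nonempty) (hC : IsComplete C) (hconv : Convex ℝ C) :
    ∃ r : H → H, Continuous r ∧ (∀ x, r x ∈ C) ∧ ∀ x ∈ C, r x = x := by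
  choose r hr hmin using fun x => exists_norm_eq_iInf_of_complete_convex hne hC hconv x
  have hin : ∀ x, ∀ w ∈ C, ⟪x - r x, w - r x⟫ ≤ 0 := fun x =>
    (norm_eq_iInf_iff_real_inner_le_zero hconv (hr x)).1 (hmin x)
  have key : ∀ x y, ‖r x - r y‖ ≤ ‖x - y‖ := fun x y => by
    have h1 := hin x (r y) (hr y)
    have h2 := hin y (r x) (hr x)
    have h3 := real_inner_le_norm (x - y) (r x - r y)
    have h4 := real_inner_self_eq_norm_sq (r x - r y)
    simp only [inner_sub_left, inner_sub_right] at h1 h2 h3 h4
    nlinarith [norm_nonneg (r x - r y), norm_nonneg (x - y), real_inner_comm (r x) (r y)]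
  refine ⟨r, (LipschitzWith.of_dist_le_mul (K := 1) fun x y => ?_).continuous, hr, fun x hx => ?_⟩
  · simpa [dist_eq_norm] using key x y
  · have h := hin x x hx
    rw [real_inner_self_eq_norm_sq] at h
    have : ‖x - r x‖ = 0 := by nlinarith [norm_nonneg (x - r x)]
    exact (sub_eq_zero.1 (norm_eq_zero.1 this)).symm

variable [FiniteDimensional ℝ H]

theorem exists_fixedPoint_inner (hC : IsCompact C) (hconv : Convex ℝ C) (hne : C.Nonempty) {f : H → H}
    (hf : ContinuousOn f C) (hm : MapsTo f C C) : ∃ x ∈ C, f x = x := by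
  obtain ⟨r, hrc, hr, hfix⟩ := exists_retraction hne hC.isComplete hconv
  obtain ⟨R, hR⟩ := hC.isBounded.subset_closedBall (0 : H)
  have hR' : ∀ x, ‖f (r x)‖ ≤ R := fun x => mem_closedBall_zero_iff.1 (hR (hm (hr x)))
  set χ : H → ℝ := fun x => max 0 (min 1 (R + 1 - ‖x‖))
  have hχc : Continuous χ := continuous_const.max (continuous_const.min (continuous_const.sub continuous_norm))
  have hg : Continuous fun x => -(χ x • f (r x)) :=
    (hχc.smul (hf.comp_continuous hrc hr)).neg
  have hs : HasCompactSupport fun x => -(χ x • f (r x)) := by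
    refine HasCompactSupport.intro (isCompact_closedBall (0 : H) (R + 1)) fun x hx => ?_
    rw [mem_closedBall_zero_iff, not_le] at hx
    have : χ x = 0 := max_eq_left ((min_le_right _ _).trans (by linarith))
    rw [this, zero_smul, neg_zero]
  obtain ⟨x, hx⟩ := Vale.Agent.P371.Link.exists_preimage hg hs 0
  rw [← sub_eq_add_neg, sub_eq_zero] at hx
  have hχ : χ x = 1 := by
    have h0 : 0 ≤ χ x := le_max_left _ _
    have h1 : χ x ≤ 1 := max_le zero_le_one (min_le_left _ _)
    have hn : ‖x‖ ≤ R := by
      conv_lhs => rw [hx]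
      rw [norm_smul, Real.norm_of_nonneg h0]
      nlinarith [hR' x, norm_nonneg (f (r x))]
    simp only [χ]
    rw [min_eq_left (by linarith), max_eq_right zero_le_one]
  rw [hχ, one_smul] at hx
  have hxC : x ∈ C := hx ▸ hm (hr x)
  exact ⟨x, hxC, by rw [hfix x hxC] at hx; exact hx.symm⟩

end Inner

/-- Brouwer: a continuous self-map of a nonempty compact convex set has a fixed point. -/
theorem exists_fixedPoint {E : Type*} [NormedAddCommGroup E] [NormedSpace ℝ E] [FiniteDimensional ℝ E]
    {C : Set E} (hC : IsCompact C) (hconv : Convex ℝ C) (hne : C.Nonempty) {f : E → E}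
    (hf : ContinuousOn f C) (hm : MapsTo f C C) : ∃ x ∈ C, f x = x := by
  set e := toEuclidean (E := E)
  have hm' : MapsTo e.symm (e '' C) C := by
    rintro _ ⟨x, hx, rfl⟩
    simpa using hx
  obtain ⟨y, hy, hfy⟩ := exists_fixedPoint_inner (hC.image e.continuous)
    (hconv.linear_image e.toLinearMap) (hne.image e) (f := fun y => e (f (e.symm y)))
    (e.continuous.comp_continuousOn (hf.comp e.symm.continuous.continuousOn hm'))
    (fun y hy => mem_image_of_mem e (hm (hm' hy)))
  exact ⟨e.symm y, hm' hy, by rw [e.eq_symm_apply]; exact hfy⟩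

end Vale.Agent.P131
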