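import Vale.Agent.P131.Brouwer

/-!
Schauder projections, Lomonosov's lemma and the flag lemma for compact operators.
-/

open Set Filter Topology Metric

namespace Vale.Agent.P131

/-- Schauder: a continuous self-map of a closed ball with relatively compact image has a
fixed point. -/
theorem exists_fixedPoint_closedBall {E : Type*} [NormedAddCommGroup E] [NormedSpace ℝ E]
    (x₀ : E) (R : ℝ) (f : E → E) (hf : ContinuousOn f (closedBall x₀ R))
    (hR : 0 ≤ R) (hm : MapsTo f (closedBall x₀ R) (closedBall x₀ R))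
    (hc : IsCompact (closure (f '' closedBall x₀ R))) :
    ∃ x ∈ closedBall x₀ R, f x = x := by
  classical
  set B := closedBall x₀ R with hB
  set S := closure (f '' B) with hS
  have hSB : S ⊆ B := closure_minimal hm.image_subset isClosed_closedBall
  have happrox : ∀ ε > (0 : ℝ), ∃ x ∈ B, ‖x - f x‖ ≤ ε := by
    intro ε hε
    obtain ⟨t, htS, htfin, hcov⟩ := hc.finite_cover_balls hε
    let s := htfin.toFinset
    let w : E → E → ℝ := fun y p => max 0 (ε - ‖y - p‖)
    have hw0 : ∀ y p, 0 ≤ w y p := fun _ _ => le_max_left _ _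
    have hsum : ∀ y ∈ S, 0 < ∑ p ∈ s, w y p := by
      intro y hy
      obtain ⟨p, hp, hyp⟩ := mem_iUnion₂.mp (hcov hy)
      rw [mem_ball, dist_eq_norm] at hyp
      exact Finset.sum_pos' (fun p _ => hw0 y p)
        ⟨p, htfin.mem_toFinset.mpr hp, lt_max_of_lt_right (sub_pos.mpr hyp)⟩
    let Pr : E → E := fun y => (∑ p ∈ s, w y p)⁻¹ • ∑ p ∈ s, w y p • p
    have hwc : ∀ p, Continuous fun y => w y p := fun p =>
      continuous_const.max (continuous_const.sub (continuous_id.sub continuous_const).norm)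
    have hPrc : ContinuousOn Pr S := by
      refine ((continuous_finsetSum _ fun p _ => hwc p).continuousOn.inv₀
        fun y hy => (hsum y hy).ne').smul ?_
      exact (continuous_finsetSum _ fun p _ => (hwc p).smul continuous_const).continuousOn
    have hPrmem : ∀ y ∈ S, Pr y ∈ convexHull ℝ t := by
      intro y hy
      have := (convex_convexHull ℝ t).sum_mem (t := s)
        (w := fun p => (∑ q ∈ s, w y q)⁻¹ * w y p) (z := fun p => p)
        (fun p _ => mul_nonneg (inv_nonneg.mpr (hsum y hy).le) (hw0 y p))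
        (by rw [← Finset.mul_sum, inv_mul_cancel₀ (hsum y hy).ne'])
        (fun p hp => subset_convexHull ℝ t (htfin.mem_toFinset.mp hp))
      simpa [Pr, Finset.smul_sum, smul_smul] using this
    have hPrnear : ∀ y ∈ S, ‖Pr y - y‖ ≤ ε := by
      intro y hy
      have h1 : Pr y - y = (∑ p ∈ s, w y p)⁻¹ • ∑ p ∈ s, w y p • (p - y) := by
        simp only [Pr, smul_sub, Finset.sum_sub_distrib, ← Finset.sum_smul, smul_smul,
          inv_mul_cancel₀ (hsum y hy).ne', one_smul]
      rw [h1, norm_smul, norm_inv, Real.norm_of_nonneg (hsum y hy).le,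
        inv_mul_le_iff₀ (hsum y hy), Finset.sum_mul]
      refine norm_sum_le_of_le _ fun p _ => ?_
      rw [norm_smul, Real.norm_of_nonneg (hw0 y p)]
      rcases le_or_gt ε ‖y - p‖ with h | h
      · simp [w, max_eq_left (sub_nonpos.mpr h)]
      · rw [norm_sub_rev]
        exact mul_le_mul_of_nonneg_left h.le (hw0 y p)
    -- Brouwer in the span of the net
    let V : Submodule ℝ E := Submodule.span ℝ t
    have hVfin : FiniteDimensional ℝ V := FiniteDimensional.span_of_finite ℝ htfin
    have hCc : IsCompact (convexHull ℝ t) := htfin.isCompact_convexHull ℝ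
    have hCV : convexHull ℝ t ⊆ V := convexHull_min Submodule.subset_span V.convex
    have hCB : convexHull ℝ t ⊆ B :=
      convexHull_min (htS.trans hSB) (convex_closedBall _ _)
    obtain ⟨y₀, hy₀⟩ : S.Nonempty :=
      ⟨f x₀, subset_closure (mem_image_of_mem f (mem_closedBall_self hR))⟩
    have hfS : MapsTo f B S := fun x hx => subset_closure (mem_image_of_mem f hx)
    have hCne : (convexHull ℝ t).Nonempty := ⟨Pr y₀, hPrmem _ hy₀⟩
    let g : E → E := fun x => Pr (f x)
    have hgc : ContinuousOn g (convexHull ℝ t) :=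
      hPrc.comp (hf.mono hCB) (hfS.mono_left hCB)
    have hgm : MapsTo g (convexHull ℝ t) (convexHull ℝ t) :=
      fun x hx => hPrmem _ (hfS (hCB hx))
    let C' : Set V := Subtype.val ⁻¹' convexHull ℝ t
    have hC'c : IsCompact C' :=
      (Subtype.isCompact_iff.mpr (by
        simp only [C']
        convert hCc
        ext z
        exact ⟨fun ⟨a, ha, haz⟩ => haz ▸ ha, fun hz => ⟨⟨z, hCV hz⟩, hz, rfl⟩⟩))
    have hC'conv : Convex ℝ C' := (convex_convexHull ℝ t).linear_preimage V.subtype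
    let g' : V → V := fun x => if h : g (x : E) ∈ V then ⟨g x, h⟩ else x
    have hg' : ∀ x ∈ C', (g' x : E) = g x := fun x hx => by
      have hm' : g (x : E) ∈ V := hCV (hgm hx)
      change ((if h : g (x : E) ∈ V then (⟨g x, h⟩ : V) else x : V) : E) = g x
      rw [dif_pos hm']
    obtain ⟨z, hz, hzfix⟩ := exists_fixedPoint hC'c hC'conv
      (by obtain ⟨c, hc⟩ := hCne; exact ⟨⟨c, hCV hc⟩, hc⟩) (f := g')
      (by
        refine (Topology.IsInducing.subtypeVal.continuousOn_iff).mpr ?_
        exact (hgc.comp continuous_subtype_val.continuousOn fun x hx => hx).congr hg')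
      (fun x hx => by
        change (g' x : E) ∈ convexHull ℝ t
        rw [hg' x hx]; exact hgm hx)
    refine ⟨z, hCB hz, ?_⟩
    have hzg : g (z : E) = z := by
      rw [← hg' z hz, hzfix]
    have := hPrnear _ (hfS (hCB hz))
    simpa only [g, hzg] using this
  choose u huB hu using fun n : ℕ => happrox (1 / ((n : ℝ) + 1)) (by positivity)
  obtain ⟨a, haS, φ, hφ, hlim⟩ :=
    hc.tendsto_subseq fun n => subset_closure (mem_image_of_mem f (huB n))
  have h0 : Tendsto (fun n => u (φ n) - f (u (φ n))) atTop (𝓝 0) := by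
    refine squeeze_zero_norm (fun n => hu (φ n)) ?_
    exact tendsto_one_div_add_atTop_nhds_zero_nat.comp hφ.tendsto_atTop
  have hua : Tendsto (fun n => u (φ n)) atTop (𝓝 a) := by
    simpa using h0.add hlim
  refine ⟨a, hSB haS, ?_⟩
  have h1 : Tendsto (fun n => f (u (φ n))) atTop (𝓝 (f a)) :=
    (hf a (hSB haS)).tendsto.comp
      (tendsto_nhdsWithin_iff.mpr ⟨hua, Eventually.of_forall fun n => huB _⟩)
  exact tendsto_nhds_unique h1 hlim

variable {X : Type*} [NormedAddCommGroup X] [NormedSpace ℂ X]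

/-- Lomonosov's lemma: a set of operators closed under linear combinations whose orbits of
nonzero vectors are dense contains, for every nonzero compact `K`, an `A` with `AK` fixing a
nonzero vector. -/
theorem lomonosov (𝒜 : Submodule ℂ (X →L[ℂ] X))
    (htrans : ∀ y : X, y ≠ 0 → Dense {z | ∃ A ∈ 𝒜, A y = z})
    (K : X →L[ℂ] X) (hK : IsCompactOperator K) (hK0 : K ≠ 0) :
    ∃ A ∈ 𝒜, ∃ x : X, x ≠ 0 ∧ A (K x) = x := by
  classical
  letI : NormedSpace ℝ X := NormedSpace.restrictScalars ℝ ℂ X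
  obtain ⟨e, he⟩ : ∃ e, K e ≠ 0 := by
    by_contra h
    push Not at h
    exact hK0 (ContinuousLinearMap.ext h)
  have hKe : 0 < ‖K e‖ := norm_pos_iff.mpr he
  -- a centre whose unit ball is mapped away from the origin
  set t : ℝ := 2 * (‖K‖ + 1) / ‖K e‖ with ht
  have ht0 : 0 < t := by positivity
  set x₀ : X := (t : ℂ) • e with hx₀
  set B := closedBall x₀ 1 with hB
  set S := closure (K '' B) with hS
  have hSc : IsCompact S := by
    refine (hK.isCompact_closure_image_closedBall (f := (K : X →ₗ[ℂ] X)) (‖x₀‖ + 1)).of_isClosed_subset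
      isClosed_closure (closure_mono (image_mono fun x hx => ?_))
    rw [mem_closedBall, dist_eq_norm] at hx
    rw [mem_closedBall, dist_zero_right]
    linarith [norm_le_norm_sub_add x x₀]
  have hKx₀ : ‖K x₀‖ = 2 * (‖K‖ + 1) := by
    rw [hx₀, map_smul, norm_smul, Complex.norm_real, Real.norm_of_nonneg ht0.le, ht,
      div_mul_cancel₀ _ hKe.ne']
  have hfar : ∀ y ∈ S, y ≠ 0 := by
    have : S ⊆ closedBall (K x₀) ‖K‖ := by
      refine closure_minimal ?_ isClosed_closedBall
      rintro _ ⟨x, hx, rfl⟩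
      rw [mem_closedBall, dist_eq_norm] at hx ⊢
      rw [← map_sub]
      exact (K.le_opNorm _).trans (mul_le_of_le_one_right (norm_nonneg _) hx)
    intro y hy h0
    have := this hy
    rw [h0, mem_closedBall, dist_zero_left, hKx₀] at this
    linarith [norm_nonneg K]
  have hx₀norm : 1 < ‖x₀‖ := by
    by_contra h
    push Not at h
    have := (K.le_opNorm x₀).trans (mul_le_of_le_one_right (norm_nonneg _) h)
    linarith [norm_nonneg K]
  have hB0 : ∀ x ∈ B, x ≠ 0 := by
    intro x hx h0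
    rw [h0, mem_closedBall, dist_zero_left] at hx
    linarith
  -- finitely many operators suffice
  have hcover : S ⊆ ⋃ A : 𝒜, {y | ‖(A : X →L[ℂ] X) y - x₀‖ < 1} := by
    intro y hy
    obtain ⟨z, hz, hzball⟩ := (htrans y (hfar y hy)).exists_mem_open isOpen_ball
      (nonempty_ball.mpr one_pos : (ball x₀ (1 : ℝ)).Nonempty)
    obtain ⟨A, hA, rfl⟩ := hz
    exact mem_iUnion.mpr ⟨⟨A, hA⟩, by simpa [dist_eq_norm] using hzball⟩
  obtain ⟨s, hs⟩ := hSc.elim_finite_subcover _ (fun A : 𝒜 => isOpen_lt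
    (((A : X →L[ℂ] X).continuous.sub continuous_const).norm) continuous_const) hcover
  let w : 𝒜 → X → ℝ := fun A y => max 0 (1 - ‖(A : X →L[ℂ] X) y - x₀‖)
  have hw0 : ∀ A y, 0 ≤ w A y := fun _ _ => le_max_left _ _
  have hwsum : ∀ y ∈ S, 0 < ∑ A ∈ s, w A y := by
    intro y hy
    obtain ⟨A, hA, hAy⟩ := mem_iUnion₂.mp (hs hy)
    exact Finset.sum_pos' (fun A _ => hw0 A y)
      ⟨A, hA, lt_max_of_lt_right (sub_pos.mpr hAy)⟩
  let op : X → (X →L[ℂ] X) :=
    fun y => ∑ A ∈ s, (((∑ A' ∈ s, w A' y)⁻¹ * w A y : ℝ) : ℂ) • (A : X →L[ℂ] X)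
  have hop : ∀ y, op y ∈ 𝒜 := fun y =>
    Submodule.sum_mem _ fun A _ => 𝒜.smul_mem _ A.2
  let ψ : X → X := fun y =>
    ∑ A ∈ s, (((∑ A' ∈ s, w A' y)⁻¹ * w A y : ℝ) : ℂ) • (A : X →L[ℂ] X) y
  have hψop : ∀ y, op y y = ψ y := fun y => by simp [op, ψ]
  have hwc : ∀ A : 𝒜, Continuous (w A) := fun A =>
    continuous_const.max (continuous_const.sub
      (((A : X →L[ℂ] X).continuous.sub continuous_const).norm))
  have hψc : ContinuousOn ψ S := by
    refine continuousOn_finsetSum _ fun A _ => ContinuousOn.smul ?_ (A : X →L[ℂ] X).continuous.continuousOn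
    exact Complex.continuous_ofReal.comp_continuousOn
      (((continuous_finsetSum _ fun A _ => hwc A).continuousOn.inv₀ fun y hy => (hwsum y hy).ne').mul
        (hwc A).continuousOn)
  have hψB : MapsTo ψ S B := by
    intro y hy
    rw [hB, mem_closedBall, dist_eq_norm]
    have h1 : ψ y - x₀ = ∑ A ∈ s,
        (((∑ A' ∈ s, w A' y)⁻¹ * w A y : ℝ) : ℂ) • ((A : X →L[ℂ] X) y - x₀) := by
      simp only [ψ, smul_sub, Finset.sum_sub_distrib, ← Finset.sum_smul]
      rw [← Complex.ofReal_sum, ← Finset.mul_sum, inv_mul_cancel₀ (hwsum y hy).ne',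
        Complex.ofReal_one, one_smul]
    rw [h1]
    calc _ ≤ ∑ A ∈ s, (∑ A' ∈ s, w A' y)⁻¹ * w A y := by
          refine norm_sum_le_of_le _ fun A _ => ?_
          rw [norm_smul, Complex.norm_real,
            Real.norm_of_nonneg (mul_nonneg (inv_nonneg.mpr (hwsum y hy).le) (hw0 A y))]
          rcases le_or_gt 1 ‖(A : X →L[ℂ] X) y - x₀‖ with h | h
          · have : w A y = 0 := max_eq_left (sub_nonpos.mpr h)
            rw [this, mul_zero, zero_mul]
          · exact mul_le_of_le_one_right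
              (mul_nonneg (inv_nonneg.mpr (hwsum y hy).le) (hw0 A y)) h.le
      _ = 1 := by rw [← Finset.mul_sum, inv_mul_cancel₀ (hwsum y hy).ne']
  have hKS : MapsTo K B S := fun x hx => subset_closure (mem_image_of_mem K hx)
  obtain ⟨x, hxB, hxfix⟩ := exists_fixedPoint_closedBall x₀ 1 (fun x => ψ (K x))
    (hψc.comp K.continuous.continuousOn hKS) zero_le_one (fun x hx => hψB (hKS hx))
    ((hSc.image_of_continuousOn hψc).of_isClosed_subset isClosed_closure
      (closure_minimal (by rintro _ ⟨z, hz, rfl⟩; exact mem_image_of_mem ψ (hKS hz))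
        (hSc.image_of_continuousOn hψc).isClosed))
  exact ⟨op (K x), hop _, x, hB0 x hxB, (hψop _).trans hxfix⟩

/-- A compact operator has no infinite triangular chain with diagonal outside the unit disc. -/
theorem no_flag (L : X →L[ℂ] X) (hL : IsCompactOperator L) (v : ℕ → X) (μ : ℕ → ℂ)
    (hv : ∀ n, v n ∉ Submodule.span ℂ (v '' Iio n)) (hμ : ∀ n, 1 ≤ ‖μ n‖)
    (htri : ∀ n, L (v n) - μ n • v n ∈ Submodule.span ℂ (v '' Iio n)) : False := by
  let S : ℕ → Submodule ℂ X := fun n => Submodule.span ℂ (v '' Iio n)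
  have hmono : ∀ {m n}, m ≤ n → S m ≤ S n := fun h =>
    Submodule.span_mono (image_mono (Iio_subset_Iio h))
  have hvmem : ∀ n, v n ∈ S (n + 1) := fun n =>
    Submodule.subset_span ⟨n, Nat.lt_succ_self n, rfl⟩
  have hLS : ∀ n, ∀ z ∈ S n, L z ∈ S n := by
    intro n z hz
    refine Submodule.span_induction ?_ (by simp) (fun a b _ _ ha hb => by
      rw [map_add]; exact add_mem ha hb) (fun c a _ ha => by
      rw [map_smul]; exact Submodule.smul_mem _ c ha) hz
    rintro _ ⟨i, hi, rfl⟩
    have h1 : L (v i) = (L (v i) - μ i • v i) + μ i • v i := by abel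
    rw [h1]
    exact add_mem (hmono (le_of_lt hi) (htri i))
      (Submodule.smul_mem _ _ (hmono (Nat.succ_le_of_lt hi) (hvmem i)))
  have hex : ∀ n, ∃ u ∈ S (n + 1), ‖u‖ ≤ 1 ∧ L u - μ n • u ∈ S n ∧
      ∀ z ∈ S n, 1 / 2 ≤ ‖u - z‖ := by
    intro n
    have : FiniteDimensional ℂ (S n) :=
      FiniteDimensional.span_of_finite ℂ ((finite_Iio n).image v)
    set d := infDist (v n) (S n : Set X) with hd
    have hd0 : 0 < d :=
      ((S n).closed_of_finiteDimensional.notMem_iff_infDist_pos ⟨0, (S n).zero_mem⟩).mp (hv n)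
    obtain ⟨y, hy, hyd⟩ := (infDist_lt_iff ⟨0, (S n).zero_mem⟩).mp
      (show infDist (v n) (S n : Set X) < 2 * d by linarith)
    rw [dist_eq_norm] at hyd
    have hdy : d ≤ ‖v n - y‖ := by rw [← dist_eq_norm]; exact infDist_le_dist_of_mem hy
    set c : ℝ := ‖v n - y‖ with hc
    have hc0 : 0 < c := by linarith
    refine ⟨(c : ℂ)⁻¹ • (v n - y), Submodule.smul_mem _ _
      (sub_mem (hvmem n) (hmono n.le_succ hy)), ?_, ?_, ?_⟩
    · rw [norm_smul, norm_inv, Complex.norm_real, Real.norm_of_nonneg hc0.le, ← hc,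
        inv_mul_cancel₀ hc0.ne']
    · have h1 : L ((c : ℂ)⁻¹ • (v n - y)) - μ n • ((c : ℂ)⁻¹ • (v n - y)) =
          (c : ℂ)⁻¹ • ((L (v n) - μ n • v n) - (L y - μ n • y)) := by
        simp only [map_smul, map_sub, smul_sub, smul_comm (μ n)]
        abel
      rw [h1]
      exact Submodule.smul_mem _ _
        (sub_mem (htri n) (sub_mem (hLS n y hy) (Submodule.smul_mem _ _ hy)))
    · intro z hz
      have h1 : d ≤ ‖v n - (y + (c : ℂ) • z)‖ := by
        rw [← dist_eq_norm]
        exact infDist_le_dist_of_mem (add_mem hy (Submodule.smul_mem _ _ hz))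
      have h2 : (c : ℂ)⁻¹ • (v n - y) - z = (c : ℂ)⁻¹ • (v n - (y + (c : ℂ) • z)) := by
        have hc' : (c : ℂ) ≠ 0 := Complex.ofReal_ne_zero.mpr hc0.ne'
        rw [smul_sub, smul_sub, smul_add, smul_smul, inv_mul_cancel₀ hc', one_smul]
        abel
      rw [h2, norm_smul, norm_inv, Complex.norm_real, Real.norm_of_nonneg hc0.le,
        le_inv_mul_iff₀ hc0]
      linarith
  choose u huS hu1 hutri hudist using hex
  have hsep : ∀ m n, m < n → 1 / 2 ≤ ‖L (u n) - L (u m)‖ := by
    intro m n hmn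
    have hμn : μ n ≠ 0 := fun h => by
      have := hμ n
      rw [h, norm_zero] at this
      linarith
    set z : X := (L (u n) - μ n • u n) - L (u m) with hz
    have hzS : z ∈ S n := sub_mem (hutri n) (hLS n _ (hmono hmn (huS m)))
    have h1 : L (u n) - L (u m) = μ n • (u n - -((μ n)⁻¹ • z)) := by
      rw [sub_neg_eq_add, smul_add, smul_smul, mul_inv_cancel₀ hμn, one_smul, hz]
      abel
    rw [h1, norm_smul]
    exact le_trans (hudist n _ (neg_mem (Submodule.smul_mem _ _ hzS)))
      (le_mul_of_one_le_left (norm_nonneg _) (hμ n))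
  obtain ⟨a, -, φ, hφ, hlim⟩ := (hL.isCompact_closure_image_closedBall (f := (L : X →ₗ[ℂ] X)) 1).tendsto_subseq
    (x := fun n => L (u n)) (fun n => subset_closure
      ⟨u n, by simpa [mem_closedBall, dist_zero_right] using hu1 n, rfl⟩)
  obtain ⟨N, hN⟩ := Metric.cauchySeq_iff.mp hlim.cauchySeq (1 / 2) (by norm_num)
  have := hN (N + 1) (Nat.le_succ N) N le_rfl
  rw [dist_eq_norm] at this
  exact absurd (hsep _ _ (hφ (Nat.lt_succ_self N))) (not_le.mpr this)

end Vale.Agent.P131
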