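import Vale.Agent.P131.Lomonosov

/-!
Hyperinvariant subspaces for operators satisfying a bilinear pencil relation with a compact
operator.
-/

open Set Filter Topology Polynomial

namespace Vale.Agent.P131

variable {X : Type*} [NormedAddCommGroup X] [NormedSpace ℂ X]

/-- Only trivial closed subspaces are hyperinvariant. -/
def TransitiveCommutant (T : X →L[ℂ] X) : Prop :=
  ∀ M : Submodule ℂ X, IsClosed (M : Set X) →
    (∀ A : X →L[ℂ] X, Commute A T → ∀ x ∈ M, A x ∈ M) → M = ⊥ ∨ M = ⊤

variable {T : X →L[ℂ] X}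

theorem commute_aeval {A : X →L[ℂ] X} (h : Commute A T) (p : ℂ[X]) :
    Commute A (aeval T p) := by
  induction p using Polynomial.induction_on' with
  | add p q hp hq => rw [map_add]; exact hp.add_right hq
  | monomial n c =>
    rw [aeval_monomial]
    exact (Algebra.commute_algebraMap_right c A).mul_right (h.pow_right n)

theorem aeval_injective (hT : TransitiveCommutant T) (hns : ∀ c : ℂ, T ≠ c • 1) :
    ∀ (p : ℂ[X]), p ≠ 0 → ∀ x, aeval T p x = 0 → x = 0 := by
  have hlin : ∀ r : ℂ, ∀ x, (T - r • (1 : X →L[ℂ] X)) x = 0 → x = 0 := by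
    intro r x hx
    set S : X →L[ℂ] X := T - r • (1 : X →L[ℂ] X) with hS
    rcases hT (LinearMap.ker (S : X →ₗ[ℂ] X))
      (ContinuousLinearMap.isClosed_ker S) (fun A hA z hz => by
        have hc : Commute A S := hA.sub_right ((Commute.one_right A).smul_right r)
        rw [LinearMap.mem_ker] at hz ⊢
        have h1 := DFunLike.congr_fun hc.eq z
        simp only [ContinuousLinearMap.mul_def, ContinuousLinearMap.comp_apply] at h1
        change S (A z) = 0
        rw [← h1]
        change A (S z) = 0
        change S z = 0 at hz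
        rw [hz, map_zero]) with h | h
    · exact (Submodule.eq_bot_iff _).mp h x (LinearMap.mem_ker.mpr hx)
    · exfalso
      refine hns r (sub_eq_zero.mp (ContinuousLinearMap.ext fun z => ?_))
      exact LinearMap.mem_ker.mp (h ▸ Submodule.mem_top : z ∈ LinearMap.ker _)
  intro p
  induction hn : p.natDegree using Nat.strong_induction_on generalizing p with
  | _ n ih =>
    intro hp x hx
    rcases Nat.eq_zero_or_pos n with hn0 | hn0
    · obtain ⟨a, rfl⟩ := Polynomial.natDegree_eq_zero.mp (hn.trans hn0)
      have ha : a ≠ 0 := fun h => hp (by rw [h, map_zero])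
      rw [aeval_C, Algebra.algebraMap_eq_smul_one] at hx
      simpa [ha] using hx
    · obtain ⟨r, hr⟩ := IsAlgClosed.exists_root p
        (by rw [degree_eq_natDegree hp, hn]; exact_mod_cast hn0.ne')
      obtain ⟨q, hq⟩ := dvd_iff_isRoot.mpr hr
      have hq0 : q ≠ 0 := fun h => hp (by rw [hq, h, mul_zero])
      have hqn : q.natDegree < n := by
        have h2 := natDegree_mul (X_sub_C_ne_zero r) hq0
        rw [← hq, natDegree_X_sub_C, hn] at h2
        omega
      refine ih _ hqn q rfl hq0 x (hlin r _ ?_)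
      rw [hq, map_mul] at hx
      simpa [Algebra.algebraMap_eq_smul_one, ContinuousLinearMap.mul_def] using hx

theorem aeval_denseRange (hT : TransitiveCommutant T) (hns : ∀ c : ℂ, T ≠ c • 1)
    (hne : ∃ x : X, x ≠ 0) (p : ℂ[X]) (hp : p ≠ 0) : DenseRange (aeval T p) := by
  set S : X →L[ℂ] X := aeval T p with hS
  rcases hT (LinearMap.range (S : X →ₗ[ℂ] X)).topologicalClosure
    (Submodule.isClosed_topologicalClosure _) (fun A hA z hz => by
      rw [← SetLike.mem_coe, Submodule.topologicalClosure_coe] at hz ⊢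
      refine map_mem_closure A.continuous hz ?_
      rintro _ ⟨w, rfl⟩
      exact ⟨A w, (DFunLike.congr_fun (commute_aeval hA p).eq w).symm⟩) with h | h
  · exfalso
    obtain ⟨x, hx⟩ := hne
    refine hx (aeval_injective hT hns p hp x ?_)
    exact (Submodule.eq_bot_iff _).mp h _
      (Submodule.le_topologicalClosure _ (LinearMap.mem_range_self _ x))
  · intro z
    have : z ∈ ((LinearMap.range (S : X →ₗ[ℂ] X)).topologicalClosure : Set X) := by
      rw [h]; trivial
    rwa [Submodule.topologicalClosure_coe] at this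

/-- The commutant as a subspace. -/
def commutant (T : X →L[ℂ] X) : Submodule ℂ (X →L[ℂ] X) where
  carrier := {A | Commute A T}
  add_mem' := fun ha hb => ha.add_left hb
  zero_mem' := Commute.zero_left T
  smul_mem' := fun c _ ha => ha.smul_left c

theorem commutant_dense (hT : TransitiveCommutant T) (y : X) (hy : y ≠ 0) :
    Dense {z | ∃ A ∈ commutant T, A y = z} := by
  let O : Submodule ℂ X :=
    (commutant T).map (ContinuousLinearMap.apply ℂ X y : (X →L[ℂ] X) →ₗ[ℂ] X)
  rcases hT O.topologicalClosure (Submodule.isClosed_topologicalClosure _) (fun A hA z hz => by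
      rw [← SetLike.mem_coe, Submodule.topologicalClosure_coe] at hz ⊢
      refine map_mem_closure A.continuous hz ?_
      rintro _ ⟨B, hB, rfl⟩
      exact ⟨A * B, Commute.mul_left hA hB, rfl⟩) with h | h
  · exfalso
    refine hy ((Submodule.eq_bot_iff _).mp h y (Submodule.le_topologicalClosure _ ?_))
    exact ⟨1, Commute.one_left T, rfl⟩
  · intro z
    have : z ∈ (O.topologicalClosure : Set X) := by rw [h]; trivial
    rw [Submodule.topologicalClosure_coe] at this
    exact this

/-- The ratio of two independent polynomials is transcendental. -/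
theorem aeval_ratio_ne_zero (c d : ℂ[X]) (hc : c ≠ 0)
    (hind : ∀ a b : ℂ, a • c + b • d = 0 → a = 0 ∧ b = 0) (F : ℂ[X]) (hF : F ≠ 0) :
    aeval (algebraMap ℂ[X] (FractionRing ℂ[X]) d / algebraMap ℂ[X] (FractionRing ℂ[X]) c) F
      ≠ 0 := by
  induction hn : F.natDegree using Nat.strong_induction_on generalizing F with
  | _ n ih =>
    rcases Nat.eq_zero_or_pos n with hn0 | hn0
    · obtain ⟨a, rfl⟩ := Polynomial.natDegree_eq_zero.mp (hn.trans hn0)
      have ha : a ≠ 0 := fun h => hF (by rw [h, map_zero])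
      rw [aeval_C]
      exact (_root_.map_ne_zero _).mpr ha
    · obtain ⟨r, hr⟩ := IsAlgClosed.exists_root F
        (by rw [degree_eq_natDegree hF, hn]; exact_mod_cast hn0.ne')
      obtain ⟨q, hq⟩ := dvd_iff_isRoot.mpr hr
      have hq0 : q ≠ 0 := fun h => hF (by rw [hq, h, mul_zero])
      have hqn : q.natDegree < n := by
        have h2 := natDegree_mul (X_sub_C_ne_zero r) hq0
        rw [← hq, natDegree_X_sub_C, hn] at h2
        omega
      rw [hq, map_mul]
      refine mul_ne_zero ?_ (ih _ hqn q hq0 rfl)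
      intro h0
      rw [map_sub, aeval_X, aeval_C, sub_eq_zero] at h0
      have hc' : algebraMap ℂ[X] (FractionRing ℂ[X]) c ≠ 0 :=
        (map_ne_zero_iff _ (IsFractionRing.injective ℂ[X] (FractionRing ℂ[X]))).mpr hc
      rw [div_eq_iff hc', IsScalarTower.algebraMap_apply ℂ ℂ[X] (FractionRing ℂ[X]) r,
        ← map_mul] at h0
      have h1 := IsFractionRing.injective ℂ[X] (FractionRing ℂ[X]) h0
      have h2 : (-r) • c + (1 : ℂ) • d = 0 := by
        rw [h1, Polynomial.smul_eq_C_mul, Polynomial.smul_eq_C_mul, map_neg, map_one,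
          Polynomial.algebraMap_eq]
        ring
      exact one_ne_zero (hind _ _ h2).2

/-- The core case `c K d = r d K c + s c K c` with `|r| ≥ 1`. -/
theorem core (hT : TransitiveCommutant T) (hns : ∀ c : ℂ, T ≠ c • 1)
    (K : X →L[ℂ] X) (hK : IsCompactOperator K) (hK0 : K ≠ 0)
    (c d : ℂ[X]) (hind : ∀ a b : ℂ, a • c + b • d = 0 → a = 0 ∧ b = 0)
    (r s : ℂ) (hr : 1 ≤ ‖r‖)
    (hrel : aeval T c * K * aeval T d =
      r • (aeval T d * K * aeval T c) + s • (aeval T c * K * aeval T c)) : False := by
  obtain ⟨e, he⟩ : ∃ e, K e ≠ 0 := by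
    by_contra h
    push Not at h
    exact hK0 (ContinuousLinearMap.ext h)
  have hne : ∃ x : X, x ≠ 0 := ⟨_, he⟩
  have hc : c ≠ 0 := fun h => by
    have := (hind 1 0 (by simp [h])).1
    exact one_ne_zero this
  have hr0 : r ≠ 0 := fun h => by rw [h, norm_zero] at hr; linarith
  set C := aeval T c with hC
  set D := aeval T d with hD
  have hKC : K * C ≠ 0 := by
    intro h
    have h1 : ∀ z, K z = 0 := fun z => congrFun
      ((aeval_denseRange hT hns hne c hc).equalizer K.continuous continuous_const
        (funext fun w => DFunLike.congr_fun h w) : (K : X → X) = fun _ => 0) z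
    exact he (h1 e)
  have hKCc : IsCompactOperator ((K * C : X →L[ℂ] X) : X → X) := hK.comp_clm C
  obtain ⟨A, hA, x₁, hx₁, hfix⟩ := lomonosov (commutant T) (commutant_dense hT) (K * C) hKCc hKC
  have hAC : A * C = C * A := commute_aeval hA c
  have hAD : A * D = D * A := commute_aeval hA d
  set M := K * A with hM
  set L := M * C with hL
  set N := M * D with hN
  have hrelM : C * M * D = r • (D * M * C) + s • (C * M * C) := by
    have h1 := congrArg (· * A) hrel
    simp only [add_mul, smul_mul_assoc] at h1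
    simp only [hM, mul_assoc] at h1 ⊢
    rw [hAD, hAC, h1]
  have hLN : L * N = r • (N * L) + s • (L * L) := by
    have h1 : L * N = M * (C * M * D) := by simp only [hL, hN, mul_assoc]
    rw [h1, hrelM, mul_add, mul_smul_comm, mul_smul_comm]
    simp only [hL, hN, mul_assoc]
  have hLc : IsCompactOperator (L : X → X) := (hK.comp_clm A).comp_clm C
  set x := (K * C) x₁ with hx
  have hx0 : x ≠ 0 := fun h => hx₁ (by rw [← hfix]; change A x = 0; rw [h, map_zero])
  have hLx : L x = x := by
    have h1 : L = K * C * A := by rw [hL, hM, mul_assoc, hAC, ← mul_assoc]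
    rw [h1, ContinuousLinearMap.mul_apply, hx, hfix]
  let y : ℕ → X := fun j => (N ^ j) x
  let S : ℕ → Submodule ℂ X := fun j => Submodule.span ℂ (y '' Iio j)
  have hysucc : ∀ j, y (j + 1) = N (y j) := fun j => by
    simp only [y, pow_succ', ContinuousLinearMap.mul_apply]
  have hmono : ∀ {m n}, m ≤ n → S m ≤ S n := fun h =>
    Submodule.span_mono (image_mono (Iio_subset_Iio h))
  have hymem : ∀ j, y j ∈ S (j + 1) := fun j =>
    Submodule.subset_span ⟨j, Nat.lt_succ_self j, rfl⟩
  have hNS : ∀ j, ∀ z ∈ S j, N z ∈ S (j + 1) := by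
    intro j z hz
    refine Submodule.span_induction ?_ (by simp) (fun a b _ _ ha hb => by
      rw [map_add]; exact add_mem ha hb) (fun k a _ ha => by
      rw [map_smul]; exact Submodule.smul_mem _ k ha) hz
    rintro _ ⟨i, hi, rfl⟩
    rw [← hysucc]
    exact Submodule.subset_span ⟨i + 1, Nat.succ_lt_succ hi, rfl⟩
  have htri : ∀ j, L (y j) - (r ^ j) • y j ∈ S j := by
    intro j
    induction j using Nat.strong_induction_on with
    | _ j ih =>
      cases j with
      | zero => simp [y, hLx]
      | succ j =>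
        have hLS : ∀ z ∈ S (j + 1), L z ∈ S (j + 1) := by
          intro z hz
          refine Submodule.span_induction ?_ (by simp) (fun a b _ _ ha hb => by
            rw [map_add]; exact add_mem ha hb) (fun k a _ ha => by
            rw [map_smul]; exact Submodule.smul_mem _ k ha) hz
          rintro _ ⟨i, hi, rfl⟩
          have h1 : L (y i) = (L (y i) - r ^ i • y i) + r ^ i • y i := by abel
          rw [h1]
          exact add_mem (hmono (le_of_lt hi) (ih i hi))
            (Submodule.smul_mem _ _ (hmono (Nat.succ_le_of_lt hi) (hymem i)))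
        have hj := ih j (Nat.lt_succ_self j)
        have h1 : L (y (j + 1)) - r ^ (j + 1) • y (j + 1) =
            r • N (L (y j) - r ^ j • y j) + s • L (L (y j)) := by
          rw [hysucc]
          have h2 : L (N (y j)) = r • N (L (y j)) + s • L (L (y j)) := DFunLike.congr_fun hLN (y j)
          rw [h2, map_sub, map_smul, smul_sub, smul_smul, pow_succ']
          abel
        rw [h1]
        refine add_mem (Submodule.smul_mem _ _ (hNS j _ hj))
          (Submodule.smul_mem _ _ (hLS _ (hLS _ (hymem j))))
  let ι := algebraMap ℂ[X] (FractionRing ℂ[X])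
  let u := ι d / ι c
  have hιc : ι c ≠ 0 :=
    (map_ne_zero_iff _ (IsFractionRing.injective ℂ[X] (FractionRing ℂ[X]))).mpr hc
  have hιd : ι d = ι c * u := by simp only [u]; rw [mul_div_cancel₀ _ hιc]
  have hιC : ∀ k : ℂ, ι (Polynomial.C k) = algebraMap ℂ (FractionRing ℂ[X]) k := fun k =>
    (IsScalarTower.algebraMap_apply ℂ ℂ[X] (FractionRing ℂ[X]) k).symm
  -- the vectors `z` whose image under `C ^ j` is a form of degree `j` in `C`, `D` applied to `x`
  let G : ℕ → ℕ → Submodule ℂ X := fun j m =>
    { carrier := {z | ∃ F p : ℂ[X], F.degree < (m : ℕ) ∧ ι p = ι c ^ j * aeval u F ∧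
        (C ^ j) z = aeval T p x}
      zero_mem' := ⟨0, 0, by rw [degree_zero]; exact WithBot.bot_lt_coe m, by simp, by simp⟩
      add_mem' := by
        rintro z z' ⟨F, p, hF, hp, hz⟩ ⟨F', p', hF', hp', hz'⟩
        refine ⟨F + F', p + p', (degree_add_le _ _).trans_lt (max_lt hF hF'), ?_, ?_⟩
        · rw [map_add, map_add, hp, hp', mul_add]
        · rw [map_add, hz, hz', map_add, ContinuousLinearMap.add_apply]
      smul_mem' := by
        rintro k z ⟨F, p, hF, hp, hz⟩
        refine ⟨k • F, k • p, (degree_smul_le _ _).trans_lt hF, ?_, ?_⟩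
        · rw [Polynomial.smul_eq_C_mul, Polynomial.smul_eq_C_mul, map_mul, map_mul, aeval_C, hp,
            hιC]
          ring
        · rw [map_smul, hz, map_smul, ContinuousLinearMap.smul_apply] }
  have hG : ∀ j, ∃ F p : ℂ[X], F.degree ≤ (j : ℕ) ∧ F.coeff j ≠ 0 ∧
      ι p = ι c ^ j * aeval u F ∧ (C ^ j) (y j) = aeval T p x ∧ S j ≤ G j j := by
    intro j
    induction j with
    | zero =>
      refine ⟨1, 1, le_of_eq degree_one, by simp, by simp, by simp [y], ?_⟩
      simp [S]
    | succ j ih =>
      obtain ⟨F, p, hFd, hFc, hp, hpy, hSj⟩ := ih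
      obtain ⟨Fz, pz, hFzd, hpz, hpzy⟩ := hSj (htri j)
      refine ⟨(Polynomial.C r * Polynomial.X + Polynomial.C s) * (r ^ j • F + Fz),
        (r • d + s • c) * (r ^ j • p + pz), ?_, ?_, ?_, ?_, ?_⟩
      · refine (degree_mul_le _ _).trans ?_
        have h1 : (Polynomial.C r * Polynomial.X + Polynomial.C s).degree ≤ 1 :=
          degree_linear_le
        have h2 : (r ^ j • F + Fz).degree ≤ (j : ℕ) :=
          (degree_add_le _ _).trans (max_le ((degree_smul_le _ _).trans hFd) hFzd.le)
        refine (add_le_add h1 h2).trans (le_of_eq ?_)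
        push_cast
        ring
      · have h2 : (r ^ j • F + Fz).degree ≤ (j : ℕ) :=
          (degree_add_le _ _).trans (max_le ((degree_smul_le _ _).trans hFd) hFzd.le)
        have h3 : (r ^ j • F + Fz).coeff (j + 1) = 0 :=
          coeff_eq_zero_of_degree_lt (h2.trans_lt (by exact_mod_cast Nat.lt_succ_self j))
        have h4 : (r ^ j • F + Fz).coeff j = r ^ j * F.coeff j := by
          rw [coeff_add, coeff_smul, coeff_eq_zero_of_degree_lt hFzd, add_zero, smul_eq_mul]
        rw [add_mul, coeff_add, mul_assoc, coeff_C_mul, coeff_X_mul, coeff_C_mul, h3, h4,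
          mul_zero, add_zero]
        exact mul_ne_zero hr0 (mul_ne_zero (pow_ne_zero _ hr0) hFc)
      · simp only [Polynomial.smul_eq_C_mul, map_mul, map_add, aeval_C, aeval_X, hιC, hp, hpz,
          hιd]
        rw [pow_succ]
        ring
      · have h1 : (C ^ j) (L (y j)) = aeval T (r ^ j • p + pz) x := by
          have : L (y j) = r ^ j • y j + (L (y j) - r ^ j • y j) := by abel
          rw [this, map_add, map_smul, hpy, hpzy, map_add, map_smul,
            ContinuousLinearMap.add_apply, ContinuousLinearMap.smul_apply]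
        have h2 : C (y (j + 1)) = r • D (L (y j)) + s • C (L (y j)) := by
          rw [hysucc]
          exact DFunLike.congr_fun hrelM (y j)
        have hcd : (C ^ j) * D = D * C ^ j :=
          ((commute_aeval (commute_aeval (Commute.refl T) c).symm d).pow_left j).eq
        rw [pow_succ, ContinuousLinearMap.mul_apply, h2, map_add, map_smul, map_smul]
        have h3 : (C ^ j) (D (L (y j))) = D ((C ^ j) (L (y j))) := DFunLike.congr_fun hcd _
        have h4 : (C ^ j) (C (L (y j))) = C ((C ^ j) (L (y j))) :=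
          DFunLike.congr_fun (pow_mul_comm' C j) _
        rw [h3, h4, h1]
        simp [map_mul, map_add, map_smul, hC, hD]
        module
      · refine Submodule.span_le.mpr ?_
        rintro _ ⟨i, hi, rfl⟩
        rcases Nat.lt_succ_iff_lt_or_eq.mp hi with h | rfl
        · obtain ⟨F', p', hF', hp', hz'⟩ := hSj (Submodule.subset_span ⟨i, h, rfl⟩)
          refine ⟨F', c * p', hF'.trans (by exact_mod_cast Nat.lt_succ_self j), ?_, ?_⟩
          · rw [map_mul, hp', pow_succ]; ring
          · rw [pow_succ', ContinuousLinearMap.mul_apply, hz', map_mul]; rfl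
        · refine ⟨F, c * p, hFd.trans_lt (by exact_mod_cast Nat.lt_succ_self i), ?_, ?_⟩
          · rw [map_mul, hp, pow_succ]; ring
          · rw [pow_succ', ContinuousLinearMap.mul_apply, hpy, map_mul]; rfl
  refine no_flag L hLc y (fun j => r ^ j) (fun n hn => ?_)
    (fun n => by rw [norm_pow]; exact one_le_pow₀ hr) htri
  obtain ⟨F, p, hFd, hFc, hp, hpy, hSn⟩ := hG n
  obtain ⟨F', p', hF', hp', hpy'⟩ := hSn hn
  have heq : p = p' := by
    rw [← sub_eq_zero]
    by_contra h
    refine hx0 (aeval_injective hT hns _ h x ?_)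
    rw [map_sub, ContinuousLinearMap.sub_apply, ← hpy, ← hpy', sub_self]
  rw [heq, hp'] at hp
  have hFF : F - F' ≠ 0 := by
    intro h
    apply hFc
    rw [sub_eq_zero.mp h]
    exact coeff_eq_zero_of_degree_lt hF'
  refine aeval_ratio_ne_zero c d hc hind _ hFF ?_
  rw [map_sub, sub_eq_zero]
  exact mul_left_cancel₀ (pow_ne_zero n hιc) hp.symm

/-- The pencil theorem. -/
theorem not_transitiveCommutant (hns : ∀ c : ℂ, T ≠ c • 1)
    (K : X →L[ℂ] X) (hK : IsCompactOperator K) (hK0 : K ≠ 0)
    (c d : ℂ[X]) (hind : ∀ a b : ℂ, a • c + b • d = 0 → a = 0 ∧ b = 0)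
    (α β γ δ : ℂ) (hne : α ≠ 0 ∨ β ≠ 0 ∨ γ ≠ 0 ∨ δ ≠ 0)
    (hrel : α • (aeval T c * K * aeval T c) + β • (aeval T c * K * aeval T d)
      + γ • (aeval T d * K * aeval T c) + δ • (aeval T d * K * aeval T d) = 0) :
    ¬ TransitiveCommutant T := by
  intro hT
  obtain ⟨e, he⟩ : ∃ e, K e ≠ 0 := by
    by_contra h
    push Not at h
    exact hK0 (ContinuousLinearMap.ext h)
  have hX : ∃ x : X, x ≠ 0 := ⟨_, he⟩
  -- killing one side
  have hleft : ∀ f g : ℂ[X], f ≠ 0 → g ≠ 0 → aeval T f * K * aeval T g ≠ 0 := by
    intro f g hf hg h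
    have h1 : ∀ z, K (aeval T g z) = 0 := fun z =>
      aeval_injective hT hns f hf _ (DFunLike.congr_fun h z)
    exact he (congrFun ((aeval_denseRange hT hns hX g hg).equalizer K.continuous continuous_const
      (funext h1) : (K : X → X) = fun _ => 0) e)
  -- triangular form
  obtain ⟨C, D, hind', a, b, g, hne', hrel'⟩ : ∃ C D : ℂ[X],
      (∀ u v : ℂ, u • C + v • D = 0 → u = 0 ∧ v = 0) ∧ ∃ a b g : ℂ,
      (a ≠ 0 ∨ b ≠ 0 ∨ g ≠ 0) ∧ a • (aeval T C * K * aeval T C) +
        b • (aeval T C * K * aeval T D) + g • (aeval T D * K * aeval T C) = 0 := by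
    by_cases hα : α = 0
    · refine ⟨d, c, fun u v h => ?_, δ, γ, β, ?_, ?_⟩
      · have := hind v u (by rw [add_comm]; exact h)
        exact ⟨this.2, this.1⟩
      · rcases hne with h | h | h | h
        · exact absurd hα h
        all_goals simp [h]
      · rw [hα, zero_smul, zero_add] at hrel
        rw [← hrel]; abel
    · obtain ⟨t, ht⟩ := IsAlgClosed.exists_root
        (Polynomial.C α * Polynomial.X ^ 2 + Polynomial.C (β + γ) * Polynomial.X + Polynomial.C δ)
        (by rw [degree_quadratic hα]; decide)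
      simp only [IsRoot.def, eval_add, eval_mul, eval_C, eval_pow, eval_X] at ht
      refine ⟨c - t • d, d, fun u v h => ?_, α, α * t + β, α * t + γ, Or.inl hα, ?_⟩
      · have := hind u (v - u * t) (by rw [← h]; module)
        refine ⟨this.1, ?_⟩
        simpa [this.1] using this.2
      · have hδ : δ = -(α * t ^ 2 + (β + γ) * t) := by linear_combination ht
        rw [← hrel, hδ, map_sub, map_smul]
        simp only [sub_mul, mul_sub, smul_mul_assoc, mul_smul_comm]
        module
  clear hrel hne
  have hC0 : C ≠ 0 := fun h => one_ne_zero (hind' 1 0 (by simp [h])).1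
  have hD0 : D ≠ 0 := fun h => one_ne_zero (hind' 0 1 (by simp [h])).2
  by_cases hb : b = 0
  · have hf : a • C + g • D ≠ 0 := fun h => by
      have := hind' _ _ h
      simp [this.1, this.2, hb] at hne'
    refine hleft _ _ hf hC0 ?_
    rw [map_add, map_smul, map_smul, add_mul, add_mul, smul_mul_assoc, smul_mul_assoc,
      smul_mul_assoc, smul_mul_assoc, ← hrel', hb, zero_smul, add_zero]
  by_cases hg : g = 0
  · have hf : a • C + b • D ≠ 0 := fun h => hb (hind' _ _ h).2
    refine hleft _ _ hC0 hf ?_
    rw [map_add, map_smul, map_smul, mul_add, mul_smul_comm, mul_smul_comm, ← hrel', hg,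
      zero_smul, add_zero]
  set r := -g / b with hr
  set s := -a / b with hs
  have hr0 : r ≠ 0 := div_ne_zero (neg_ne_zero.mpr hg) hb
  have hmain : aeval T C * K * aeval T D =
      r • (aeval T D * K * aeval T C) + s • (aeval T C * K * aeval T C) := by
    apply smul_right_injective (X →L[ℂ] X) hb
    simp only [smul_add, smul_smul, hr, hs, mul_div_cancel₀ _ hb]
    rw [eq_comm, ← sub_eq_zero]
    rw [← neg_eq_zero, ← hrel']
    module
  rcases le_or_gt 1 ‖r‖ with h | h
  · exact core hT hns K hK hK0 C D hind' r s h hmain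
  · have hr1 : 1 - r ≠ 0 := sub_ne_zero.mpr fun h1 => by rw [← h1, norm_one] at h; linarith
    set κ := -s / (1 - r) with hκ
    refine core hT hns K hK hK0 (D + κ • C) C (fun u v huv => ?_) r⁻¹ 0
      (by rw [norm_inv]; exact (one_le_inv₀ (norm_pos_iff.mpr hr0)).mpr h.le) ?_
    · have h1 := hind' (u * κ + v) u (by rw [← huv]; module)
      exact ⟨h1.2, by simpa [h1.2] using h1.1⟩
    · rw [zero_smul, add_zero, eq_inv_smul_iff₀ hr0, map_add, map_smul]
      simp only [add_mul, mul_add, smul_add, smul_mul_assoc, mul_smul_comm, smul_smul]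
      rw [hmain, add_assoc, ← add_smul]
      congr 2
      rw [hκ]
      field_simp
      ring

end Vale.Agent.P131
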